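import Vale.Agent.P237.Gen.Contact.Main

/-!
The second moment of a monotone profile above the semicircle, bounded affinely by its mass.
-/

namespace Vale.P254.Three

open MeasureTheory Set
open Vale.Agent.P237.Gen.Contact (Adm semi pw)

/-- For a profile `f` above the semicircle, the second moment of `f²` is at most an affine
function of its mass. -/
theorem moment_le_affine {f : ℝ → ℝ} (hf : Adm f) :
    ∫ t in (0:ℝ)..1, t ^ 2 * f t ^ 2 ≤ 9 / 16 * pw 2 f - 53 / 250 := by
  have hnn : ∀ t ∈ Icc (0:ℝ) 1, 0 ≤ f t := fun t ht => (Real.sqrt_nonneg _).trans (hf.ge t ht)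
  have hanti : AntitoneOn (fun t => f t ^ 2) (Icc (0:ℝ) 1) := fun s hs t ht hst =>
    pow_le_pow_left₀ (hnn t ht) (hf.anti hs ht hst) 2
  have hi : IntervalIntegrable (fun t => f t ^ 2) volume (0:ℝ) 1 :=
    AntitoneOn.intervalIntegrable (by rwa [uIcc_of_le zero_le_one])
  have hw : Continuous fun t : ℝ => 9 / 16 - t ^ 2 := by fun_prop
  set g : ℝ → ℝ := fun t => (9 / 16 - t ^ 2) * f t ^ 2 with hg
  have hgi : IntervalIntegrable g volume 0 1 := hi.continuousOn_mul hw.continuousOn
  have hgsub : ∀ a b, 0 ≤ a → a ≤ b → b ≤ 1 → IntervalIntegrable g volume a b :=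
    fun a b ha hab hb => hgi.mono_set (by
      rw [uIcc_of_le hab, uIcc_of_le zero_le_one]; exact Icc_subset_Icc ha hb)
  have h1 := hgsub 0 (93/200) le_rfl (by norm_num) (by norm_num)
  have h2 := hgsub (93/200) (3/4) (by norm_num) (by norm_num) (by norm_num)
  have h3 := hgsub (3/4) 1 (by norm_num) (by norm_num) le_rfl
  set a := f (3 / 4) ^ 2 with ha
  have p1 : ∫ t in (0:ℝ)..(93/200), (9 / 16 - 25 / 16 * t ^ 2 + t ^ 4) ≤
      ∫ t in (0:ℝ)..(93/200), g t := by
    refine intervalIntegral.integral_mono_on (by norm_num)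
      (Continuous.intervalIntegrable (by fun_prop) _ _) h1 fun t ht => ?_
    have hsq : 1 - t ^ 2 ≤ f t ^ 2 := by
      have h := pow_le_pow_left₀ (Real.sqrt_nonneg _) (hf.ge t ⟨ht.1, by linarith [ht.2]⟩) 2
      rwa [Real.sq_sqrt (by nlinarith [ht.1, ht.2])] at h
    have hw0 : (0:ℝ) ≤ 9 / 16 - t ^ 2 := by nlinarith [ht.1, ht.2]
    have := mul_le_mul_of_nonneg_left hsq hw0
    simp only [hg]
    nlinarith
  have p2 : ∫ t in (93/200:ℝ)..(3/4), (9 / 16 - t ^ 2) * a ≤ ∫ t in (93/200:ℝ)..(3/4), g t := by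
    refine intervalIntegral.integral_mono_on (by norm_num)
      (Continuous.intervalIntegrable (by fun_prop) _ _) h2 fun t ht => ?_
    exact mul_le_mul_of_nonneg_left (hanti ⟨by linarith [ht.1], by linarith [ht.2]⟩
      ⟨by norm_num, by norm_num⟩ ht.2) (by nlinarith [ht.1, ht.2])
  have p3 : ∫ t in (3/4:ℝ)..1, (9 / 16 - t ^ 2) * a ≤ ∫ t in (3/4:ℝ)..1, g t := by
    refine intervalIntegral.integral_mono_on (by norm_num)
      (Continuous.intervalIntegrable (by fun_prop) _ _) h3 fun t ht => ?_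
    exact mul_le_mul_of_nonpos_left (hanti ⟨by norm_num, by norm_num⟩
      ⟨by linarith [ht.1], ht.2⟩ ht.1) (by nlinarith [ht.1, ht.2])
  have e : ∫ t in (0:ℝ)..1, g t
      = 9 / 16 * pw 2 f - ∫ t in (0:ℝ)..1, t ^ 2 * f t ^ 2 := by
    rw [pw, ← intervalIntegral.integral_const_mul,
      ← intervalIntegral.integral_sub (hi.const_mul _) (hi.continuousOn_mul (by fun_prop))]
    simp only [hg, sub_mul]
  rw [← intervalIntegral.integral_add_adjacent_intervals (h1.trans h2) h3,
    ← intervalIntegral.integral_add_adjacent_intervals h1 h2] at e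
  have hd : ∀ (c : ℝ) (u v : ℝ), ∫ t in u..v, (9 / 16 - t ^ 2) * c
      = c * (9 / 16 * (v - u) - (v ^ 3 - u ^ 3) / 3) := fun c u v => by
    rw [intervalIntegral.integral_mul_const, intervalIntegral.integral_sub
      intervalIntegrable_const (Continuous.intervalIntegrable (by fun_prop) _ _),
      intervalIntegral.integral_const, integral_pow]
    simp only [smul_eq_mul]
    push_cast
    ring
  rw [hd] at p2 p3
  have hd1 : ∫ t in (0:ℝ)..(93/200), (9 / 16 - 25 / 16 * t ^ 2 + t ^ 4)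
      = 9 / 16 * (93/200) - 25 / 48 * (93/200) ^ 3 + (93/200) ^ 5 / 5 := by
    rw [intervalIntegral.integral_add (Continuous.intervalIntegrable (by fun_prop) _ _)
      (Continuous.intervalIntegrable (by fun_prop) _ _), intervalIntegral.integral_sub
      intervalIntegrable_const (Continuous.intervalIntegrable (by fun_prop) _ _),
      intervalIntegral.integral_const, intervalIntegral.integral_const_mul, integral_pow,
      integral_pow]
    simp only [smul_eq_mul]
    norm_num
  rw [hd1] at p1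
  have ha0 : 0 ≤ a := sq_nonneg _
  norm_num at p1 p2 p3
  linarith

/-- The affine bound gives a bound by the fifth power of the mass. -/
theorem moment_cube_le {M W : ℝ} (hM : 0 ≤ M) (h : M ≤ 9 / 16 * W - 53 / 250) :
    M ^ 3 ≤ 108 * (9 / 16 : ℝ) ^ 5 / (3125 * (53 / 250) ^ 2) * W ^ 5 := by
  have key : ∀ b : ℝ, 0 ≤ b → 3125 * b ^ 2 * M ^ 3 ≤ 108 * (M + b) ^ 5 := by
    intro b hb
    have hc : 0 ≤ 27 * M ^ 3 + 216 * M ^ 2 * b + 76 * M * b ^ 2 + 12 * b ^ 3 := by positivity
    nlinarith [mul_nonneg (sq_nonneg (2 * M - 3 * b)) hc]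
  have h5 : (M + 53 / 250) ^ 5 ≤ (9 / 16 * W) ^ 5 :=
    pow_le_pow_left₀ (by positivity) (by linarith) 5
  rw [div_mul_eq_mul_div, le_div_iff₀ (by norm_num)]
  have := key (53 / 250) (by norm_num)
  rw [mul_pow] at h5
  nlinarith

end Vale.P254.Three
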