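import Vale.Agent.P237.Gen.Contact.John
import Vale.Agent.P237.Gen.Contact.Main
import Vale.Agent.P254.Affine
import Vale.Agent.P254.Simplex
import Vale.Agent.P254.Three.Profile

/-!
The isotropic constant of a centrally symmetric body in dimension three is below that of the
simplex.
-/

namespace Vale.P254.Three

open MeasureTheory Set Metric
open scoped RealInnerProductSpace Matrix
open Vale.Agent.P237.Gen.Contact
open Vale.Agent.P237

theorem kappa_two : Every.kappa 2 = Real.pi := by
  rw [Vale.Agent.P237.Gen.Contact.kappa_eq, Real.sq_sqrt Real.pi_pos.le,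
    show ((2 : ℕ) : ℝ) / 2 + 1 = (1 : ℕ) + 1 by norm_num, Real.Gamma_nat_eq_factorial]
  simp

/-- The second moment of a body in John position, cubed, against the fifth power of its volume. -/
theorem john_moment {K : Set (E 2)} (hJ : InJohn K) :
    0 < volume.real K ∧
      ((∫ z in K, ‖z‖ ^ 2) / 3) ^ 3 <
        (9 / 8000 : ℝ) * volume.real K ^ 5 := by
  have hV : 0 < volume.real K := ENNReal.toReal_pos
    ((measure_closedBall_pos volume (0 : E 2) one_pos).trans_le (measure_mono hJ.ball)).ne'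
    hJ.compact.measure_lt_top.ne
  refine ⟨hV, ?_⟩
  obtain ⟨m, c, u, hc0, hcsum, hu, huK, hdec⟩ := hJ.contacts
  have hπ := Real.pi_pos
  set W := volume.real K / (2 * Real.pi) with hW
  have hbound : ∀ i, ∫ z in K, ⟪u i, z⟫ ^ 2 ≤ 2 * Real.pi * (9 / 16 * W - 53 / 250) := fun i => by
    obtain ⟨b, hb⟩ := exists_basis_first (n := 2) (hu i)
    have hbK : ∀ x ∈ K, |⟪b 0, x⟫| ≤ 1 := by rw [hb]; exact huK i
    have h1 := integral_height_prof two_ne_zero hJ hbK (φ := fun t => t ^ 2) (by fun_prop)
      (fun t => neg_sq t)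
    have h2 := volume_prof two_ne_zero hJ hbK
    rw [kappa_two] at h1 h2
    rw [hb] at h1
    rw [h1, hW, h2, mul_div_cancel_left₀ _ (by positivity)]
    exact mul_le_mul_of_nonneg_left (moment_le_affine (prof_adm two_ne_zero hJ b)) (by positivity)
  have hsum : ∫ z in K, ‖z‖ ^ 2 = ∑ i, c i * ∫ z in K, ⟪u i, z⟫ ^ 2 := by
    simp only [← integral_const_mul]
    rw [← integral_finsetSum _ fun i _ =>
      (show Continuous fun z : E 2 => c i * ⟪u i, z⟫ ^ 2 by fun_prop).continuousOn.integrableOn_compact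
        hJ.compact]
    refine setIntegral_congr_fun hJ.compact.measurableSet fun z _ => ?_
    have h : ⟪∑ i, (c i * ⟪u i, z⟫) • u i, z⟫ = ‖z‖ ^ 2 := by
      rw [hdec z, real_inner_self_eq_norm_sq]
    simp only [sum_inner, real_inner_smul_left] at h
    rw [← h]
    exact Finset.sum_congr rfl fun i _ => by ring
  set I := ∫ z in K, ‖z‖ ^ 2 with hI
  have hle : I ≤ 3 * (2 * Real.pi * (9 / 16 * W - 53 / 250)) := by
    rw [hsum]
    refine (Finset.sum_le_sum fun i _ => mul_le_mul_of_nonneg_left (hbound i) (hc0 i)).trans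
      (le_of_eq ?_)
    rw [← Finset.sum_mul, hcsum]
    norm_num
  have hI0 : 0 ≤ I := integral_nonneg fun z => sq_nonneg _
  have hM : I / (6 * Real.pi) ≤ 9 / 16 * W - 53 / 250 := by
    rw [div_le_iff₀ (by positivity)]; linarith
  have hk := moment_cube_le (by positivity) hM
  have hW0 : 0 < W := by positivity
  have hVe : volume.real K = 2 * Real.pi * W := by rw [hW]; field_simp
  have hIe : I / 3 = 2 * Real.pi * (I / (6 * Real.pi)) := by field_simp; ring
  rw [hVe, hIe, mul_pow (2 * Real.pi), mul_pow (2 * Real.pi) W,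
    show 9 / 8000 * ((2 * Real.pi) ^ 5 * W ^ 5)
      = (2 * Real.pi) ^ 3 * (9 / 8000 * (2 * Real.pi) ^ 2 * W ^ 5) by ring]
  refine mul_lt_mul_of_pos_left (hk.trans_lt ?_) (by positivity)
  refine mul_lt_mul_of_pos_right ?_ (by positivity)
  nlinarith [Real.pi_gt_d2]

/-- For a positive semidefinite matrix the determinant is at most the cube of the mean of the
diagonal. -/
theorem det_le_trace {A : Matrix (Fin 3) (Fin 3) ℝ} (hA : A.PosSemidef) :
    A.det ≤ ((A 0 0 + A 1 1 + A 2 2) / 3) ^ 3 := by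
  have h1 := hA.isHermitian.det_eq_prod_eigenvalues
  have h2 := hA.isHermitian.trace_eq_sum_eigenvalues
  simp only [RCLike.ofReal_real_eq_id, id, Fin.prod_univ_three] at h1
  simp only [Matrix.trace, Matrix.diag_apply, RCLike.ofReal_real_eq_id, id,
    Fin.sum_univ_three] at h2
  rw [h1, h2]
  have a0 := hA.eigenvalues_nonneg 0
  have a1 := hA.eigenvalues_nonneg 1
  have a2 := hA.eigenvalues_nonneg 2
  nlinarith [mul_nonneg a0 (sq_nonneg (hA.isHermitian.eigenvalues 1 - hA.isHermitian.eigenvalues 2)),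
    mul_nonneg a1 (sq_nonneg (hA.isHermitian.eigenvalues 2 - hA.isHermitian.eigenvalues 0)),
    mul_nonneg a2 (sq_nonneg (hA.isHermitian.eigenvalues 0 - hA.isHermitian.eigenvalues 1)),
    mul_nonneg (add_nonneg (add_nonneg a0 a1) a2)
      (sq_nonneg (hA.isHermitian.eigenvalues 0 - hA.isHermitian.eigenvalues 1)),
    mul_nonneg (add_nonneg (add_nonneg a0 a1) a2)
      (sq_nonneg (hA.isHermitian.eigenvalues 1 - hA.isHermitian.eigenvalues 2)),
    mul_nonneg (add_nonneg (add_nonneg a0 a1) a2)
      (sq_nonneg (hA.isHermitian.eigenvalues 2 - hA.isHermitian.eigenvalues 0))]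

theorem centroid_eq_zero {n : ℕ} {X : Set (Fin n → ℝ)} (hs : ∀ x ∈ X, -x ∈ X) :
    centroid X = 0 := by
  funext i
  have hX : Neg.neg ⁻¹' X = X := Set.ext fun x => ⟨fun h => by simpa using hs _ h, hs x⟩
  have h := (Measure.measurePreserving_neg (volume : Measure (Fin n → ℝ))).setIntegral_preimage_emb
    (Homeomorph.neg (Fin n → ℝ)).measurableEmbedding (fun x => x i) X
  rw [hX] at h
  simp only [Pi.neg_apply, integral_neg] at h
  rw [centroid, show ∫ x in X, x i = 0 by linarith, zero_div, Pi.zero_apply]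

theorem covMat_posSemidef {n : ℕ} {K : Set (Fin n → ℝ)} (hK : IsCompact K) :
    (covMat K).PosSemidef := by
  refine Matrix.PosSemidef.of_dotProduct_mulVec_nonneg (Matrix.IsHermitian.ext fun i j => ?_)
    fun v => ?_
  · simp only [covMat, Matrix.of_apply, star_trivial]
    congr 2
    funext x
    ring
  · have hi : ∀ g : (Fin n → ℝ) → ℝ, Continuous g → IntegrableOn g K := fun g hg =>
      hg.continuousOn.integrableOn_compact hK
    have e : star v ⬝ᵥ covMat K *ᵥ v
        = (∫ x in K, (∑ i, v i * (x i - centroid K i)) ^ 2) / volume.real K := by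
      simp only [star_trivial, dotProduct, Matrix.mulVec, covMat, Matrix.of_apply, Finset.mul_sum,
        sq, Finset.sum_mul]
      rw [integral_finsetSum _ fun i _ => hi _ (by fun_prop), Finset.sum_div]
      refine Finset.sum_congr rfl fun i _ => ?_
      rw [integral_finsetSum _ fun j _ => hi _ (by fun_prop), Finset.sum_div]
      refine Finset.sum_congr rfl fun j _ => ?_
      rw [show (fun x : Fin n → ℝ => v j * (x j - centroid K j) * (v i * (x i - centroid K i)))
        = fun x => v i * v j * ((x i - centroid K i) * (x j - centroid K j)) by funext x; ring,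
        integral_const_mul]
      ring
    rw [e]
    exact div_nonneg (integral_nonneg fun x => sq_nonneg _) measureReal_nonneg

/-- The key bound for symmetric bodies with the origin in the interior. -/
theorem sym_ratio_lt {X : Set (Fin 3 → ℝ)} (hX : Vale.Agent.P237.Gen.Body (n := 2) X)
    (hs : ∀ x ∈ X, -x ∈ X) :
    0 ≤ (covMat X).det / volume.real X ^ 2 ∧
      (covMat X).det / volume.real X ^ 2 < 9 / 8000 := by
  obtain ⟨A, hJ⟩ := exists_johnPosition (n := 2) hX hs
  obtain ⟨hV, hm⟩ := john_moment hJ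
  obtain ⟨b, -⟩ := exists_basis_first (n := 2) (u := EuclideanSpace.single 0 1) (by simp)
  let C : (Fin 3 → ℝ) ≃ₗ[ℝ] E 2 :=
    (WithLp.linearEquiv 2 ℝ (Fin 3 → ℝ)).symm.trans b.repr.symm.toLinearEquiv
  set T := (C.trans A).toAffineEquiv with hT
  set Y := coords b ⁻¹' (A ⁻¹' X) with hY
  have himg : T '' Y = X := by
    have : Function.Surjective T := T.surjective
    exact Set.image_preimage_eq X this
  have hYc : IsCompact Y := isCompact_pre hJ.compact b
  have hYs : ∀ x ∈ Y, -x ∈ Y := fun x hx => by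
    show coords b (-x) ∈ A ⁻¹' X
    rw [coords_neg]
    exact hJ.symm _ hx
  have hYV : volume.real Y = volume.real (A ⁻¹' X) := by
    rw [measureReal_def, measureReal_def, hY,
      (measurePreserving_coords b).measure_preimage_emb (measurableEmbedding_coords b)]
  have hVY : 0 < volume.real Y := hYV ▸ hV
  rw [← himg, affine_ratio T hYc hVY]
  have hpsd := covMat_posSemidef hYc
  refine ⟨div_nonneg hpsd.det_nonneg (sq_nonneg _), ?_⟩
  have hd : covMat Y 0 0 + covMat Y 1 1 + covMat Y 2 2
      = (∫ z in A ⁻¹' X, ‖z‖ ^ 2) / volume.real (A ⁻¹' X) := by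
    have hi : ∀ i : Fin 3, IntegrableOn (fun x : Fin 3 → ℝ => x i ^ 2) Y := fun i =>
      (by fun_prop : Continuous fun x : Fin 3 → ℝ => x i ^ 2).continuousOn.integrableOn_compact hYc
    simp only [covMat, Matrix.of_apply, centroid_eq_zero hYs, Pi.zero_apply, sub_zero, ← sq, hYV]
    rw [← (measurePreserving_coords b).setIntegral_preimage_emb (measurableEmbedding_coords b)
      (fun z => ‖z‖ ^ 2) (A ⁻¹' X)]
    simp only [norm_coords_sq]
    rw [integral_finsetSum _ fun i _ => hi i, Finset.sum_div, Fin.sum_univ_three]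
  refine (div_le_div_of_nonneg_right (det_le_trace hpsd) (sq_nonneg _)).trans_lt ?_
  rw [hd, hYV, div_div, div_pow, div_div, div_lt_iff₀ (by positivity)]
  rw [div_pow, div_lt_iff₀ (by norm_num)] at hm
  calc (∫ z in A ⁻¹' X, ‖z‖ ^ 2) ^ 3 < 9 / 8000 * volume.real (A ⁻¹' X) ^ 5 * 3 ^ 3 := hm
    _ = _ := by ring

/-- Every centrally symmetric convex body in space has isotropic constant below the simplex's. -/
theorem symmetric_lt_simplex {K : Set (Fin 3 → ℝ)} (hKc : IsCompact K) (hKv : Convex ℝ K)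
    (hint : (interior K).Nonempty) (c : Fin 3 → ℝ) (hsym : ∀ x ∈ K, (2 : ℝ) • c - x ∈ K)
    (p : Fin 4 → Fin 3 → ℝ) (hp : AffineIndependent ℝ p) :
    isoConst K < isoConst (convexHull ℝ (Set.range p)) := by
  set τ : (Fin 3 → ℝ) ≃ᵃ[ℝ] (Fin 3 → ℝ) := AffineEquiv.constVAdd ℝ _ (-c) with hτ
  have hτa : ∀ x, τ x = x - c := fun x => by
    simp [hτ, sub_eq_add_neg, add_comm]
  have hVK : 0 < volume.real K := ENNReal.toReal_pos
    (Measure.measure_pos_of_nonempty_interior _ hint).ne' hKc.measure_lt_top.ne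
  set X := τ '' K with hX
  have hs : ∀ x ∈ X, -x ∈ X := by
    rintro _ ⟨x, hx, rfl⟩
    refine ⟨_, hsym x hx, ?_⟩
    rw [hτa, hτa, two_smul]
    abel
  have hXv : Convex ℝ X := hKv.affine_image τ.toAffineMap
  have hτc : Continuous τ := by
    rw [show (τ : (Fin 3 → ℝ) → Fin 3 → ℝ) = fun x => x - c from funext hτa]
    fun_prop
  have hXc : IsCompact X := hKc.image hτc
  have hXi : (interior X).Nonempty := by
    obtain ⟨x, hx⟩ := hint
    refine ⟨x - c, ?_⟩
    have e : X = (fun x => x + -c) '' K := by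
      rw [hX]; exact Set.image_congr fun y _ => by rw [hτa, sub_eq_add_neg]
    rw [e, show (fun x : Fin 3 → ℝ => x + -c) = Homeomorph.addRight (-c) from rfl,
      ← (Homeomorph.addRight (-c)).image_interior]
    exact ⟨x, hx, by simp [sub_eq_add_neg]⟩
  have h0 : (0 : Fin 3 → ℝ) ∈ interior X := by
    obtain ⟨x, hx⟩ := hXi
    have hxn : -x ∈ interior X := by
      have e : Homeomorph.neg (Fin 3 → ℝ) '' X = X := by
        ext y
        refine ⟨?_, fun hy => ⟨-y, hs y hy, by simp⟩⟩
        rintro ⟨z, hz, rfl⟩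
        exact hs z hz
      rw [← e, ← (Homeomorph.neg (Fin 3 → ℝ)).image_interior]
      exact ⟨x, hx, rfl⟩
    have := hXv.interior hx hxn (by norm_num : (0:ℝ) ≤ 1 / 2) (by norm_num : (0:ℝ) ≤ 1 / 2)
      (by norm_num)
    simpa using this
  obtain ⟨hl, hu⟩ := sym_ratio_lt ⟨hXv, hXc, h0⟩ hs
  rw [← affine_isoConst τ hKc hVK, simplex_isoConst p hp, isoConst, ← hX]
  refine Real.rpow_lt_rpow hl (hu.trans_le (le_of_eq ?_)) (by norm_num)
  norm_num [Nat.factorial]

end Vale.P254.Three
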